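import Mathlib.Algebra.MonoidAlgebra.Basic
import Mathlib.LinearAlgebra.LinearIndependent.Defs
import Mathlib.LinearAlgebra.Matrix.GeneralLinearGroup.Defs

/-!
Definitions for the strong form of the failure of direct finiteness.
-/

namespace Vale.Agent.P194.H493

/-- the sum in `K[H]` of the images of the elements of the finite set `S` -/
noncomputable def groupSum (K : Type*) [Ring K] {G H : Type*} [Group G] [Group H] (i : G →* H)
    (S : Finset G) : MonoidAlgebra K H :=
  ∑ g ∈ S, MonoidAlgebra.of K H (i g)

/-- the map `y ↦ (h ↦ ∑ g ∈ S, y (h g))` on the functions on `H` with values in `M` -/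
def shiftSum {G H : Type*} [Group G] [Group H] (i : G →* H) (M : Type*) [AddCommGroup M]
    (S : Finset G) (y : H → M) (h : H) : M :=
  ∑ g ∈ S, y (h * i g)

/-- `a b = 1`, `b a ≠ 1`, the words `b ^ i * a ^ j` are linearly independent over `K`, and the
left module `R ⊕ R (1 - b a)` is isomorphic to `R` -/
def IsJacobsonPair (K : Type*) {R : Type*} [Ring K] [Ring R] [Module K R] (a b : R) : Prop :=
  a * b = 1 ∧ b * a ≠ 1 ∧ LinearIndependent K (fun p : ℕ × ℕ => b ^ p.1 * a ^ p.2) ∧
    Nonempty ((R × Submodule.span R {1 - b * a}) ≃ₗ[R] R)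

/-- for every `n`, `M_n(K)` embeds in `R` (the unit need not be preserved) and `GL_n(K)` embeds in
the group of units of `R` -/
def ContainsMatrices (K R : Type*) [Ring K] [Ring R] : Prop :=
  ∀ n : ℕ, (∃ f : Matrix (Fin n) (Fin n) K →ₙ+* R, Function.Injective f) ∧
    ∃ f : (Matrix (Fin n) (Fin n) K)ˣ →* Rˣ, Function.Injective f

/-- every finite group embeds in the group of units of `R` -/
def UnitsContainFiniteGroups (R : Type*) [Ring R] : Prop :=
  ∀ (F : Type) [Group F] [Finite F], ∃ f : F →* Rˣ, Function.Injective f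

end Vale.Agent.P194.H493
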