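import Vale.Agent.P194.H493.Jac

/-!
The pair `a, b` in `F_2[G]`, transported to `K[H]`, and the two convolution operators.
-/

namespace Vale.Agent.P194.H493

open MonoidAlgebra

universe u v w

section base

variable {G : Type} [Group G] (K : Type u) [Ring K] [CharP K 2] {H : Type v} [Group H] (i : G →* H)

/-- base change from `F_2[G]` to `K[H]` -/
noncomputable def bc : MonoidAlgebra (ZMod 2) G →+* MonoidAlgebra K H :=
  (MonoidAlgebra.mapRingHom H (ZMod.castHom (dvd_refl 2) K)).comp
    (MonoidAlgebra.mapDomainRingHom (ZMod 2) i)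

theorem bc_single (g : G) (c : ZMod 2) :
    bc K i (single g c) = single (i g) (ZMod.castHom (dvd_refl 2) K c) := by
  simp [bc]

theorem bc_injective [Nontrivial K] (hi : Function.Injective i) : Function.Injective (bc K i) := by
  have hf1 : Function.Injective (MonoidAlgebra.mapDomainRingHom (ZMod 2) i) :=
    MonoidAlgebra.mapDomain_injective hi
  have hf2 : Function.Injective (MonoidAlgebra.mapRingHom H (ZMod.castHom (dvd_refl 2) K)) := by
    intro x y hxy
    apply MonoidAlgebra.coeff_injective
    ext g
    have h := congrArg (fun z => MonoidAlgebra.coeff z g) hxy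
    simp only [MonoidAlgebra.coeff_mapRingHom] at h
    exact (ZMod.castHom (dvd_refl 2) K).injective (by simpa using h)
  intro x y hxy
  exact hf1 (hf2 hxy)

/-- elements of `F_2[G]` are sums of group elements -/
theorem eq_sum (x : MonoidAlgebra (ZMod 2) G) :
    x = ∑ g ∈ x.coeff.support, MonoidAlgebra.of (ZMod 2) G g := by
  conv_lhs => rw [← sum_coeff_single x, Finsupp.sum]
  refine Finset.sum_congr rfl fun g hg => ?_
  have h1 : ∀ c : ZMod 2, c ≠ 0 → c = 1 := by decide
  rw [h1 _ (Finsupp.mem_support_iff.1 hg), MonoidAlgebra.of_apply]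

theorem bc_eq_sum (x : MonoidAlgebra (ZMod 2) G) :
    bc K i x = ∑ g ∈ x.coeff.support, MonoidAlgebra.of K H (i g) := by
  conv_lhs => rw [eq_sum x, map_sum]
  refine Finset.sum_congr rfl fun g _ => ?_
  rw [MonoidAlgebra.of_apply, bc_single, map_one, MonoidAlgebra.of_apply]

omit [CharP K 2] in
theorem cent_of (h : H) : Cent K (MonoidAlgebra.of K H h) := by
  intro c y
  induction y using MonoidAlgebra.induction_linear with
  | zero => simp
  | add x y hx hy => rw [smul_add, mul_add, hx, hy, mul_add, smul_add]
  | single m r => simp [MonoidAlgebra.of_apply]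

theorem cent_bc (x : MonoidAlgebra (ZMod 2) G) : Cent K (bc K i x) := by
  rw [bc_eq_sum]
  intro c y
  rw [Finset.sum_mul, Finset.sum_mul, Finset.smul_sum]
  exact Finset.sum_congr rfl fun g _ => cent_of K (i g) c y

/-- a nonzero element of the image has a coefficient 1 -/
theorem exists_functional [Nontrivial K] (hi : Function.Injective i)
    {x : MonoidAlgebra (ZMod 2) G} (hx : x ≠ 0) :
    ∃ t : MonoidAlgebra K H →ₗ[K] K, t (bc K i x) = 1 := by
  classical
  obtain ⟨g0, hg0⟩ : ∃ g, g ∈ x.coeff.support := by
    by_contra h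
    push Not at h
    apply hx
    rw [← MonoidAlgebra.coeff_eq_zero]
    exact Finsupp.support_eq_empty.1 (Finset.eq_empty_of_forall_notMem h)
  refine ⟨{ toFun := fun y => y.coeff (i g0), map_add' := fun _ _ => rfl,
            map_smul' := fun _ _ => rfl }, ?_⟩
  change (bc K i x).coeff (i g0) = 1
  rw [bc_eq_sum, MonoidAlgebra.coeff_sum, Finsupp.finsetSum_apply, Finset.sum_eq_single g0]
  · simp [MonoidAlgebra.of_apply]
  · intro g _ hg
    rw [MonoidAlgebra.of_apply, MonoidAlgebra.coeff_single, Finsupp.single_apply, if_neg]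
    exact fun h => hg (hi h)
  · intro h
    exact absurd hg0 h

end base

section conv

variable {G : Type} [Group G] {H : Type v} [Group H] (i : G →* H) (M : Type w) [AddCommGroup M]
  [Module (ZMod 2) M]

/-- translations of functions on `H` by elements of `G` -/
def tr : G →* Module.End (ZMod 2) (H → M) where
  toFun g :=
    { toFun := fun x h => x (h * i g)
      map_add' := fun _ _ => rfl
      map_smul' := fun _ _ => rfl }
  map_one' := by
    ext x h
    simp
  map_mul' g g' := by
    ext x h
    simp [mul_assoc]

/-- the action of `F_2[G]` on functions on `H` -/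
noncomputable def act : MonoidAlgebra (ZMod 2) G →ₐ[ZMod 2] Module.End (ZMod 2) (H → M) :=
  MonoidAlgebra.lift (ZMod 2) _ G (tr i M)

theorem act_apply (x : MonoidAlgebra (ZMod 2) G) (y : H → M) (h : H) :
    act i M x y h = ∑ g ∈ x.coeff.support, y (h * i g) := by
  conv_lhs => rw [eq_sum x, map_sum]
  rw [LinearMap.sum_apply, Finset.sum_apply]
  refine Finset.sum_congr rfl fun g _ => ?_
  simp [act, tr]

theorem act_injective [Nontrivial M] (hi : Function.Injective i) :
    ∀ x, act (H := H) i M x = 0 → x = 0 := by
  classical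
  intro x hx
  by_contra hne
  obtain ⟨g0, hg0⟩ : ∃ g, g ∈ x.coeff.support := by
    by_contra h
    push Not at h
    apply hne
    rw [← MonoidAlgebra.coeff_eq_zero]
    exact Finsupp.support_eq_empty.1 (Finset.eq_empty_of_forall_notMem h)
  obtain ⟨m, hm⟩ := exists_ne (0 : M)
  have h1 := congrFun (congrArg (fun T : Module.End (ZMod 2) (H → M) =>
    T (Pi.single (i g0) m)) hx) 1
  change act i M x (Pi.single (i g0) m) 1 = 0 at h1
  rw [act_apply, Finset.sum_eq_single g0] at h1
  · rw [one_mul, Pi.single_eq_same] at h1
    exact hm h1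
  · intro g _ hg
    rw [one_mul, Pi.single_eq_of_ne]
    exact fun h => hg (hi h)
  · intro h
    exact absurd hg0 h

theorem conv_pair [Nontrivial M] (hi : Function.Injective i) {a b : MonoidAlgebra (ZMod 2) G}
    (hab : a * b = 1) (hba : b * a ≠ 1) :
    Function.Injective (act (H := H) i M b) ∧ ¬ Function.Surjective (act (H := H) i M b) ∧
    Function.Surjective (act (H := H) i M a) ∧ ¬ Function.Injective (act (H := H) i M a) := by
  have h1 : ∀ x : H → M, act i M a (act i M b x) = x := by
    intro x
    rw [← Module.End.mul_apply, ← map_mul, hab, map_one, Module.End.one_apply]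
  have h2 : ¬ ∀ x : H → M, act i M b (act i M a x) = x := by
    intro h
    apply hba
    have h3 : act (H := H) i M (b * a - 1) = 0 := by
      rw [map_sub, map_mul, map_one, sub_eq_zero]
      ext x : 1
      exact h x
    exact sub_eq_zero.1 (act_injective i M hi _ h3)
  refine ⟨Function.LeftInverse.injective h1, ?_, Function.RightInverse.surjective h1, ?_⟩
  · intro hs
    apply h2
    intro x
    obtain ⟨y, rfl⟩ := hs x
    rw [h1]
  · intro hinj
    apply h2
    intro x
    apply hinj
    rw [h1]

end conv

/-- the same, with the operators written out, for an abelian group of exponent two -/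
theorem conv_sets {G : Type} [Group G] {H : Type v} [Group H] (i : G →* H)
    (hi : Function.Injective i) (M : Type w) [AddCommGroup M] [Nontrivial M]
    (hM : ∀ m : M, m + m = 0) {a b : MonoidAlgebra (ZMod 2) G}
    (hab : a * b = 1) (hba : b * a ≠ 1) :
    Function.Injective (fun (x : H → M) (h : H) => ∑ g ∈ b.coeff.support, x (h * i g)) ∧
    ¬ Function.Surjective (fun (x : H → M) (h : H) => ∑ g ∈ b.coeff.support, x (h * i g)) ∧
    Function.Surjective (fun (x : H → M) (h : H) => ∑ g ∈ a.coeff.support, x (h * i g)) ∧
    ¬ Function.Injective (fun (x : H → M) (h : H) => ∑ g ∈ a.coeff.support, x (h * i g)) := by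
  let _ : Module (ZMod 2) M := AddCommGroup.zmodModule (fun m => by rw [two_nsmul]; exact hM m)
  have ha : (fun (x : H → M) (h : H) => ∑ g ∈ a.coeff.support, x (h * i g)) =
      act (H := H) i M a := by
    ext x h
    rw [act_apply]
  have hb : (fun (x : H → M) (h : H) => ∑ g ∈ b.coeff.support, x (h * i g)) =
      act (H := H) i M b := by
    ext x h
    rw [act_apply]
  rw [ha, hb]
  exact conv_pair i M hi hab hba

end Vale.Agent.P194.H493
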