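import Vale.Agent.P194.H798.Main
import Vale.Agent.P194.H493.Grp
import Vale.Agent.P194.H493.Defs

/-!
One pair of finite subsets `A, B` of a finitely presented torsion-free group, and everything that
their sums do in all group rings of characteristic 2 of all larger groups.
-/

namespace Vale.Agent.P194.H493

universe u v w

/-- the group and the pair over `F_2` -/
theorem exists_pair :
    ∃ (G : Type) (_ : Group G), (∀ g : G, ∀ m : ℕ, 0 < m → g ^ m = 1 → g = 1) ∧
      Group.IsFinitelyPresented G ∧
      ∃ a b : MonoidAlgebra (ZMod 2) G, a * b = 1 ∧ b * a ≠ 1 := by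
  obtain ⟨S, σ, e1, he1, Y, htor, hlin, a, b, hab, hba⟩ :=
    Vale.Agent.P194.M.data Vale.Agent.P201.S.stmtLoc Vale.Agent.P201.S.stmtGlob
      Vale.Agent.P201.S.stmtTor
  have : Finite (Vale.Agent.P201.S.rels σ) :=
    (Vale.Agent.P186.Hyp.rels_finite σ).to_subtype
  exact ⟨Vale.Agent.P201.S.Gp σ, inferInstance, htor, inferInstance, a, b, hab, hba⟩

theorem main :
    ∃ (G : Type) (_ : Group G) (A B : Finset G),
      (∀ g : G, ∀ m : ℕ, 0 < m → g ^ m = 1 → g = 1) ∧ Group.IsFinitelyPresented G ∧
      ∀ (H : Type v) [Group H] (i : G →* H), Function.Injective i →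
        (∀ (K : Type u) [Ring K] [Nontrivial K] [CharP K 2],
          IsJacobsonPair K (groupSum K i A) (groupSum K i B) ∧
          ContainsMatrices K (MonoidAlgebra K H) ∧
          UnitsContainFiniteGroups (MonoidAlgebra K H)) ∧
        ∀ (M : Type w) [AddCommGroup M] [Nontrivial M], (∀ m : M, m + m = 0) →
          (Function.Injective (shiftSum i M B) ∧ ¬ Function.Surjective (shiftSum i M B)) ∧
          Function.Surjective (shiftSum i M A) ∧ ¬ Function.Injective (shiftSum i M A) := by
  obtain ⟨G, _, htor, hfp, a, b, hab, hba⟩ := exists_pair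
  refine ⟨G, inferInstance, a.coeff.support, b.coeff.support, htor, hfp, ?_⟩
  intro H _ i hi
  refine ⟨?_, fun M _ _ hM => ?_⟩
  · intro K _ _ _
    have h1 : bc K i a * bc K i b = 1 := by rw [← map_mul, hab, map_one]
    have h2 : bc K i b * bc K i a ≠ 1 := by
      rw [← map_mul]
      intro h
      exact hba (bc_injective K i hi (h.trans (map_one _).symm))
    obtain ⟨t, ht⟩ := exists_functional K i hi (x := 1 - b * a) (sub_ne_zero.2 (Ne.symm hba))
    rw [map_sub, map_one, map_mul] at ht
    have hn : ContainsMatrices K (MonoidAlgebra K H) := by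
      intro n
      have h3 := mat_injective (cent_bc K i a) (cent_bc K i b) h1 t ht n
      exact ⟨⟨_, h3⟩, exists_units h3⟩
    have ea : groupSum K i a.coeff.support = bc K i a := (bc_eq_sum K i a).symm
    have eb : groupSum K i b.coeff.support = bc K i b := (bc_eq_sum K i b).symm
    rw [ea, eb]
    refine ⟨⟨h1, h2, linInd h1 t ht (cent_bc K i a) (cent_bc K i b), module_iso h1⟩, hn, ?_⟩
    intro F _ _
    exact exists_finite (fun n => (hn n).2) F
  · obtain ⟨h1, h2, h3, h4⟩ := conv_sets i hi M hM hab hba
    exact ⟨⟨h1, h2⟩, h3, h4⟩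

end Vale.Agent.P194.H493
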