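import Mathlib

/-!
Matrix units, independence of the words `b ^ i * a ^ j`, and module decomposition in a ring with
`a * b = 1`, `b * a ≠ 1`.
-/

namespace Vale.Agent.P194.H493

section ring

variable {R : Type*} [Ring R] {a b : R}

theorem a_mul (hab : a * b = 1) : a * (1 - b * a) = 0 := by
  rw [mul_sub, mul_one, ← mul_assoc, hab, one_mul, sub_self]

theorem mul_b (hab : a * b = 1) : (1 - b * a) * b = 0 := by
  rw [sub_mul, one_mul, mul_assoc, hab, mul_one, sub_self]

theorem idem (hab : a * b = 1) : (1 - b * a) * (1 - b * a) = 1 - b * a := by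
  rw [mul_sub, mul_one, ← mul_assoc, mul_b hab, zero_mul, sub_zero]

theorem pow_pow (hab : a * b = 1) (n : ℕ) : a ^ n * b ^ n = 1 := by
  induction n with
  | zero => simp
  | succ n ih => rw [pow_succ, pow_succ', mul_assoc, ← mul_assoc a b, hab, one_mul, ih]

/-- the middle product -/
theorem mid (hab : a * b = 1) (j k : ℕ) :
    (1 - b * a) * (a ^ j * b ^ k) * (1 - b * a) = if j = k then 1 - b * a else 0 := by
  rcases lt_trichotomy j k with h | h | h
  · obtain ⟨d, rfl⟩ := Nat.exists_eq_add_of_lt h
    rw [if_neg (by omega), show j + d + 1 = j + (1 + d) by ring, pow_add, ← mul_assoc (a ^ j),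
      pow_pow hab, one_mul, pow_add, pow_one, ← mul_assoc (1 - b * a), mul_b hab, zero_mul, zero_mul]
  · subst h
    rw [if_pos rfl, pow_pow hab, mul_one, idem hab]
  · obtain ⟨d, rfl⟩ := Nat.exists_eq_add_of_lt h
    rw [if_neg (by omega), show k + d + 1 = (d + 1) + k by ring, pow_add, mul_assoc (a ^ (d + 1)),
      pow_pow hab, mul_one, mul_assoc, pow_succ, mul_assoc, a_mul hab, mul_zero, mul_zero]

/-- the matrix units -/
def mu (a b : R) (i j : ℕ) : R := b ^ i * (1 - b * a) * a ^ j

theorem mu_mul (hab : a * b = 1) (i j k l : ℕ) :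
    mu a b i j * mu a b k l = if j = k then mu a b i l else 0 := by
  have h : mu a b i j * mu a b k l =
      b ^ i * ((1 - b * a) * (a ^ j * b ^ k) * (1 - b * a)) * a ^ l := by
    simp only [mu]
    noncomm_ring
  rw [h, mid hab]
  split_ifs
  · rfl
  · simp

end ring

section scalars

variable {K R : Type*} [Ring K] [Ring R] [Module K R] [IsScalarTower K R R] {a b : R}

/-- `x` commutes with the scalars -/
def Cent (K : Type*) {R : Type*} [Ring K] [Ring R] [Module K R] (x : R) : Prop :=
  ∀ (c : K) (y : R), x * (c • y) = c • (x * y)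

omit [IsScalarTower K R R] in
theorem Cent.mul {x y : R} (hx : Cent K x) (hy : Cent K y) : Cent K (x * y) := by
  intro c z
  rw [mul_assoc, hy, hx, mul_assoc]

omit [IsScalarTower K R R] in
theorem Cent.one : Cent K (1 : R) := by
  intro c z
  rw [one_mul, one_mul]

omit [IsScalarTower K R R] in
theorem Cent.sub {x y : R} (hx : Cent K x) (hy : Cent K y) : Cent K (x - y) := by
  intro c z
  rw [sub_mul, hx, hy, sub_mul, smul_sub]

omit [IsScalarTower K R R] in
theorem Cent.pow {x : R} (hx : Cent K x) (n : ℕ) : Cent K (x ^ n) := by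
  induction n with
  | zero => simpa using Cent.one
  | succ n ih => rw [pow_succ]; exact ih.mul hx

omit [IsScalarTower K R R] in
theorem Cent.mu (ha : Cent K a) (hb : Cent K b) (i j : ℕ) : Cent K (mu a b i j) :=
  ((hb.pow i).mul (Cent.one.sub (hb.mul ha))).mul (ha.pow j)

/-- the functional reading off an entry -/
def tf (t : R →ₗ[K] K) (ha : Cent K a) (hb : Cent K b) (m k : ℕ) : R →ₗ[K] K where
  toFun x := t ((1 - b * a) * a ^ m * x * (b ^ k * (1 - b * a)))
  map_add' x y := by rw [mul_add, add_mul, map_add]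
  map_smul' c x := by
    have h : Cent K ((1 - b * a) * a ^ m) := (Cent.one.sub (hb.mul ha)).mul (ha.pow m)
    rw [h, smul_mul_assoc, map_smul]
    rfl

theorem tf_word (hab : a * b = 1) (t : R →ₗ[K] K) (ht : t (1 - b * a) = 1) (ha : Cent K a)
    (hb : Cent K b) (m k i j : ℕ) :
    tf t ha hb m k (b ^ i * a ^ j) = if j ≤ k ∧ m + j = i + k then 1 else 0 := by
  change t ((1 - b * a) * a ^ m * (b ^ i * a ^ j) * (b ^ k * (1 - b * a))) = _
  by_cases h : j ≤ k
  · obtain ⟨d, rfl⟩ := Nat.exists_eq_add_of_le h
    have e : (1 - b * a) * a ^ m * (b ^ i * a ^ j) * (b ^ (j + d) * (1 - b * a)) =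
        (1 - b * a) * (a ^ m * (b ^ i * ((a ^ j * b ^ j) * b ^ d))) * (1 - b * a) := by
      rw [pow_add b j d]
      noncomm_ring
    rw [e, pow_pow hab, one_mul, ← pow_add, mid hab]
    by_cases h2 : m = i + d
    · rw [if_pos h2, if_pos ⟨h, by omega⟩, ht]
    · rw [if_neg h2, if_neg (by omega), map_zero]
  · rw [if_neg (by omega)]
    obtain ⟨d, rfl⟩ := Nat.exists_eq_add_of_lt (not_le.1 h)
    have e : (1 - b * a) * a ^ m * (b ^ i * a ^ (k + d + 1)) * (b ^ k * (1 - b * a)) =
        (1 - b * a) * a ^ m * b ^ i * (a ^ d * (a * ((a ^ k * b ^ k) * (1 - b * a)))) := by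
      rw [show k + d + 1 = d + (1 + k) by ring, pow_add a d, pow_add a 1, pow_one]
      noncomm_ring
    rw [e, pow_pow hab, one_mul, a_mul hab, mul_zero, mul_zero, map_zero]

/-- the words `b ^ i * a ^ j` are linearly independent over `K` -/
theorem linInd (hab : a * b = 1) (t : R →ₗ[K] K) (ht : t (1 - b * a) = 1) (ha : Cent K a)
    (hb : Cent K b) : LinearIndependent K (fun p : ℕ × ℕ => b ^ p.1 * a ^ p.2) := by
  classical
  have key : ∀ p : ℕ × ℕ, ∃ f : R →ₗ[K] K, ∀ q : ℕ × ℕ,
      f (b ^ q.1 * a ^ q.2) = if q = p then 1 else 0 := by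
    rintro ⟨i, j⟩
    by_cases h : i = 0 ∨ j = 0
    · refine ⟨tf t ha hb i j, ?_⟩
      rintro ⟨i', j'⟩
      rw [tf_word hab t ht]
      refine if_congr ?_ rfl rfl
      simp only [Prod.mk.injEq]
      omega
    · obtain ⟨i0, rfl⟩ : ∃ i0, i = i0 + 1 := ⟨i - 1, by omega⟩
      obtain ⟨j0, rfl⟩ : ∃ j0, j = j0 + 1 := ⟨j - 1, by omega⟩
      refine ⟨tf t ha hb (i0 + 1) (j0 + 1) - tf t ha hb i0 j0, ?_⟩
      rintro ⟨i', j'⟩
      rw [LinearMap.sub_apply, tf_word hab t ht, tf_word hab t ht]
      simp only [Prod.mk.injEq]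
      by_cases h1 : i' = i0 + 1 ∧ j' = j0 + 1
      · rw [if_pos h1, if_pos (by omega), if_neg (by omega), sub_zero]
      · rw [if_neg h1]
        by_cases h2 : j' ≤ j0 ∧ i0 + j' = i' + j0
        · rw [if_pos h2, if_pos (by omega), sub_self]
        · rw [if_neg h2, if_neg (by omega), sub_zero]
  choose f hf using key
  rw [linearIndependent_iff]
  intro l hl
  ext p
  have h := congrArg (f p) hl
  rw [Finsupp.linearCombination_apply, Finsupp.sum, map_sum, map_zero] at h
  simp only [map_smul, hf, smul_eq_mul, mul_ite, mul_one, mul_zero] at h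
  rw [Finset.sum_ite_eq'] at h
  by_cases hp : p ∈ l.support
  · rw [if_pos hp] at h
    simpa using h
  · simpa using hp

/-- matrices inside `R` -/
noncomputable def mat (ha : Cent K a) (hb : Cent K b) (hab : a * b = 1) (n : ℕ) :
    Matrix (Fin n) (Fin n) K →ₙ+* R where
  toFun M := ∑ i, ∑ j, M i j • mu a b i j
  map_zero' := by simp
  map_add' M N := by simp [add_smul, Finset.sum_add_distrib]
  map_mul' M N := by
    have h : ∀ i j : Fin n, (M i j • mu a b i j) * (∑ k, ∑ l, N k l • mu a b (k : ℕ) l) =
        ∑ l, (M i j * N j l) • mu a b i l := by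
      intro i j
      rw [Finset.mul_sum, Finset.sum_eq_single j]
      · rw [Finset.mul_sum]
        refine Finset.sum_congr rfl fun l _ => ?_
        rw [smul_mul_assoc, Cent.mu ha hb, mu_mul hab, if_pos rfl, smul_smul]
      · intro k _ hk
        rw [Finset.mul_sum]
        refine Finset.sum_eq_zero fun l _ => ?_
        rw [smul_mul_assoc, Cent.mu ha hb, mu_mul hab, if_neg, smul_zero, smul_zero]
        intro hjk
        exact hk (Fin.ext hjk.symm)
      · intro hj
        exact absurd (Finset.mem_univ j) hj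
    rw [Finset.sum_mul]
    refine Finset.sum_congr rfl fun i _ => ?_
    rw [Finset.sum_mul]
    simp only [h]
    rw [Finset.sum_comm]
    refine Finset.sum_congr rfl fun l _ => ?_
    rw [Matrix.mul_apply, Finset.sum_smul]

theorem mat_injective (ha : Cent K a) (hb : Cent K b) (hab : a * b = 1) (t : R →ₗ[K] K)
    (ht : t (1 - b * a) = 1) (n : ℕ) : Function.Injective (mat ha hb hab n) := by
  intro M N h
  have key : ∀ (P : Matrix (Fin n) (Fin n) K) (k l : Fin n),
      t (mu a b 0 k * mat ha hb hab n P * mu a b l 0) = P k l := by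
    intro P k l
    change t (mu a b 0 k * (∑ i, ∑ j, P i j • mu a b i j) * mu a b l 0) = _
    rw [Finset.mul_sum, Finset.sum_mul, Finset.sum_eq_single k]
    · rw [Finset.mul_sum, Finset.sum_mul, Finset.sum_eq_single l]
      · rw [Cent.mu ha hb, smul_mul_assoc, mu_mul hab, if_pos rfl, mu_mul hab, if_pos rfl, map_smul]
        have : mu a b 0 0 = 1 - b * a := by simp [mu]
        rw [this, ht, smul_eq_mul, mul_one]
      · intro j _ hj
        rw [Cent.mu ha hb, smul_mul_assoc, mu_mul hab, if_pos rfl, mu_mul hab, if_neg, smul_zero]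
        exact fun h => hj (Fin.ext h)
      · intro hj
        exact absurd (Finset.mem_univ _) hj
    · intro i _ hi
      rw [Finset.mul_sum, Finset.sum_mul]
      refine Finset.sum_eq_zero fun j _ => ?_
      rw [Cent.mu ha hb, mu_mul hab, if_neg, smul_zero, zero_mul]
      exact fun h => hi (Fin.ext h.symm)
    · intro hk
      exact absurd (Finset.mem_univ _) hk
  ext k l
  rw [← key M k l, ← key N k l, h]

end scalars

section units

variable {M R : Type*} [Ring M] [Ring R]

/-- a non-unital homomorphism gives a unital homomorphism of the multiplicative monoids -/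
def corner (f : M →ₙ+* R) : M →* R where
  toFun x := f x + (1 - f 1)
  map_one' := by rw [add_sub_cancel]
  map_mul' x y := by
    have h1 : f x * f 1 = f x := by rw [← map_mul, mul_one]
    have h2 : f 1 * f y = f y := by rw [← map_mul, one_mul]
    have h3 : f 1 * f 1 = f 1 := by rw [← map_mul, one_mul]
    rw [map_mul]
    have e : (f x + (1 - f 1)) * (f y + (1 - f 1)) =
        f x * f y + (f x - f x * f 1) + (f y - f 1 * f y) + (1 - f 1 - (f 1 - f 1 * f 1)) := by
      noncomm_ring
    rw [e, h1, h2, h3]
    abel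

theorem corner_injective {f : M →ₙ+* R} (hf : Function.Injective f) :
    Function.Injective (corner f) := by
  intro x y h
  exact hf (add_right_cancel (show f x + (1 - f 1) = f y + (1 - f 1) from h))

theorem exists_units {f : M →ₙ+* R} (hf : Function.Injective f) :
    ∃ F : Mˣ →* Rˣ, Function.Injective F :=
  ⟨Units.map (corner f), Units.map_injective (corner_injective hf)⟩

end units

section finite

variable {R : Type*} [Ring R] {K : Type*} [Ring K] [Nontrivial K]

/-- permutation matrices -/
theorem exists_perm (n : ℕ) :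
    ∃ F : Equiv.Perm (Fin n) →* (Matrix (Fin n) (Fin n) K)ˣ, Function.Injective F := by
  let f : Equiv.Perm (Fin n) →* Matrix (Fin n) (Fin n) K :=
    { toFun := fun σ => Matrix.of fun i j => if i = σ j then 1 else 0
      map_one' := by
        ext i j
        change (if i = j then (1 : K) else 0) = (1 : Matrix (Fin n) (Fin n) K) i j
        rw [Matrix.one_apply]
      map_mul' := by
        intro σ τ
        ext i j
        rw [Matrix.mul_apply, Finset.sum_eq_single (τ j)]
        · by_cases h : i = σ (τ j)
          · simp [h]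
          · simp [h]
        · intro k _ hk
          simp [hk]
        · intro h
          exact absurd (Finset.mem_univ _) h }
  have hf : Function.Injective f := by
    intro σ τ h
    ext j
    have h1 := congrFun (congrFun h (σ j)) j
    simp only [f, MonoidHom.coe_mk, OneHom.coe_mk, Matrix.of_apply, if_true] at h1
    by_contra hne
    rw [if_neg (fun h => hne (by rw [h]))] at h1
    exact one_ne_zero h1
  refine ⟨(Units.map f).comp (toUnits.toMonoidHom), ?_⟩
  intro σ τ h
  apply hf
  exact congrArg Units.val h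

theorem exists_finite (h : ∀ n : ℕ, ∃ F : (Matrix (Fin n) (Fin n) K)ˣ →* Rˣ, Function.Injective F)
    (F : Type*) [Group F] [Finite F] : ∃ f : F →* Rˣ, Function.Injective f := by
  obtain ⟨n, ⟨e⟩⟩ := Finite.exists_equiv_fin F
  obtain ⟨f1, h1⟩ := h n
  obtain ⟨f2, h2⟩ := exists_perm (K := K) n
  refine ⟨f1.comp (f2.comp ((e.permCongrHom : Equiv.Perm F ≃* Equiv.Perm (Fin n)).toMonoidHom.comp
    (MulAction.toPermHom F F))), ?_⟩
  intro x y hxy
  have h3 := (e.permCongrHom : Equiv.Perm F ≃* Equiv.Perm (Fin n)).injective (h2 (h1 hxy))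
  have h4 := congrArg (fun σ : Equiv.Perm F => σ 1) h3
  simpa using h4

end finite

section module

variable {R : Type*} [Ring R] {a b : R}

/-- the free module of rank one is isomorphic to itself plus `R (1 - b a)` -/
theorem module_iso (hab : a * b = 1) :
    Nonempty ((R × Submodule.span R {1 - b * a}) ≃ₗ[R] R) := by
  refine ⟨LinearEquiv.ofBijective
    { toFun := fun x => x.1 * a + (x.2 : R)
      map_add' := fun x y => by
        simp only [Prod.fst_add, Prod.snd_add, Submodule.coe_add, add_mul]
        abel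
      map_smul' := fun c x => by
        simp [mul_add, mul_assoc] } ⟨?_, ?_⟩⟩
  · rw [← LinearMap.ker_eq_bot, LinearMap.ker_eq_bot']
    rintro ⟨x, y, hy⟩ h
    obtain ⟨r, rfl⟩ := Submodule.mem_span_singleton.1 hy
    have h : x * a + r * (1 - b * a) = 0 := h
    have hx : x = 0 := by
      have := congrArg (· * b) h
      simpa [add_mul, mul_assoc, hab, mul_b hab] using this
    subst hx
    have hr : r * (1 - b * a) = 0 := by simpa using h
    ext
    · rfl
    · exact hr
  · intro y
    refine ⟨(y * b, ⟨y * (1 - b * a), Submodule.mem_span_singleton.2 ⟨y, rfl⟩⟩), ?_⟩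
    change y * b * a + y * (1 - b * a) = y
    rw [mul_sub, mul_one, ← mul_assoc, add_sub_cancel]

end module

end Vale.Agent.P194.H493
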